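import Vale.Agent.P038.H139.GStep

/-!
# The strict inequality (G) in an arc-minimal counterexample
-/

namespace Vale.Agent.P038.H409

open Finset Vale.Agent.P038.H139

variable {V : Type*} [Fintype V]

theorem cl_sub_self (D : OGraph V) (S : Finset V) : S ⊆ cl D S := fun _ hx => mem_cl.2 (Or.inl hx)

/-- (G): in an arc-minimal counterexample for the weight `w` every set which is not closed has a
second neighbourhood of smaller weight than its first one. -/
theorem Gw [DecidableEq V] (D : OGraph V) (w : V → ℝ) (hw : ∀ v, 0 ≤ w v)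
    (hCE : ∀ v, W w (N2 D v) < W w (N1 D v))
    (hmin : ∀ D' : OGraph V, (∀ v, W w (N2 D' v) < W w (N1 D' v)) →
      ∑ v, (N1 D v).card ≤ ∑ v, (N1 D' v).card)
    (X : Finset V) (hX : cl D X ≠ X) :
    W w (cl D (cl D X) \ cl D X) < W w (cl D X \ X) := by
  classical
  set L := outS D X \ X with hL
  have hLcl : cl D X \ X = L := by
    ext z
    simp only [hL, Finset.mem_sdiff, mem_cl, mem_outS]
    tauto
  have hclX : cl D X = X ∪ L := by
    ext z
    rw [hL]
    simp only [Finset.mem_union, Finset.mem_sdiff, mem_cl, mem_outS]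
    tauto
  have hLne : L.Nonempty := by
    rw [Finset.nonempty_iff_ne_empty]
    intro he
    apply hX
    rw [hclX, he, Finset.union_empty]
  -- the function d
  set d : Finset V → ℝ := fun T => W w (cl D T \ X) - 2 * W w T with hd
  have hLX : Disjoint L X := Finset.sdiff_disjoint
  have hdL : d L = W w (cl D (cl D X) \ cl D X) - W w (cl D X \ X) := by
    have e1 : cl D L \ X = (cl D (cl D X) \ cl D X) ∪ L := by
      ext z
      rw [hclX]
      simp only [Finset.mem_sdiff, Finset.mem_union, mem_cl]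
      constructor
      · rintro ⟨h1 | ⟨y, hy, hyz⟩, h2⟩
        · exact Or.inr h1
        · by_cases hz : z ∈ L
          · exact Or.inr hz
          · exact Or.inl ⟨Or.inr ⟨y, Or.inr hy, hyz⟩, fun h3 => h3.elim h2 hz⟩
      · rintro (⟨h1 | ⟨y, hy, hyz⟩, h2⟩ | h1)
        · exact absurd h1 h2
        · have hzX : z ∉ X := fun h3 => h2 (Or.inl h3)
          have hzL : z ∉ L := fun h3 => h2 (Or.inr h3)
          rcases hy with hy | hy
          · exact absurd (Finset.mem_sdiff.2 ⟨mem_outS.2 ⟨y, hy, hyz⟩, hzX⟩) hzL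
          · exact ⟨Or.inr ⟨y, hy, hyz⟩, hzX⟩
        · exact ⟨Or.inl h1, fun h3 => Finset.disjoint_left.1 hLX h1 h3⟩
    have e2 : Disjoint (cl D (cl D X) \ cl D X) L := by
      rw [Finset.disjoint_left]
      intro z hz hz'
      refine (Finset.mem_sdiff.1 hz).2 ?_
      rw [hclX]
      exact Finset.mem_union_right _ hz'
    simp only [hd]
    rw [e1, W_union e2, hLcl]
    ring
  by_contra hcon
  push Not at hcon
  have hdLpos : 0 ≤ d L := by rw [hdL]; linarith
  have hd0 : d ∅ = 0 := by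
    have : cl D (∅ : Finset V) = ∅ := by
      rw [Finset.eq_empty_iff_forall_notMem]
      intro z hz
      rw [mem_cl] at hz
      simp at hz
    simp [hd, this, W]
  -- minimiser of d among the proper subsets of L
  obtain ⟨T, hT, hTmin⟩ := Finset.exists_min_image L.ssubsets d
    ⟨∅, Finset.mem_ssubsets.2 (Finset.ssubset_iff_subset_ne.2
      ⟨Finset.empty_subset _, hLne.ne_empty.symm⟩)⟩
  rw [Finset.mem_ssubsets] at hT
  have hTL : T ⊆ L := hT.1
  have hTne : T ≠ L := hT.ne
  have hmin2 : ∀ S ⊆ L, d T ≤ d S := by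
    intro S hS
    by_cases hSL : S = L
    · rw [hSL]
      have h1 := hTmin ∅ (Finset.mem_ssubsets.2 (Finset.ssubset_iff_subset_ne.2
        ⟨Finset.empty_subset _, hLne.ne_empty.symm⟩))
      linarith
    · exact hTmin S (Finset.mem_ssubsets.2 (Finset.ssubset_iff_subset_ne.2 ⟨hS, hSL⟩))
  set Z := L \ T with hZ
  set D' := del D X Z with hD'
  have key : ∀ y ∈ X, Fw (1:ℝ) D w y + (W w ((cl D (N1 D y ∩ Z)) \ (cl D T ∪ X))
      - 2 * W w (N1 D y ∩ Z)) ≤ Fw (1:ℝ) D' w y := by
    intro y hy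
    set Dy := N1 D y ∩ Z with hDy
    set Ey := cl D Dy \ (cl D T ∪ X) with hEy
    have hN1 : N1 D' y = N1 D y \ Dy := by
      ext z
      rw [mem_N1, Finset.mem_sdiff, hDy, Finset.mem_inter, mem_N1]
      constructor
      · rintro ⟨h1, h2⟩
        exact ⟨h1, fun h3 => h2 ⟨hy, h3.2⟩⟩
      · rintro ⟨h1, h2⟩
        exact ⟨h1, fun h3 => h2 ⟨h1, h3.2⟩⟩
    have hEsub : Ey ⊆ N2 D y ∪ Dy := by
      intro z hz
      obtain ⟨hz1, hz2⟩ := Finset.mem_sdiff.1 hz
      have hzX : z ∉ X := fun h3 => hz2 (Finset.mem_union_right _ h3)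
      have hzT : z ∉ cl D T := fun h3 => hz2 (Finset.mem_union_left _ h3)
      rw [mem_cl] at hz1
      rcases hz1 with hz1 | ⟨c, hc, hcz⟩
      · exact Finset.mem_union_right _ hz1
      · have hyc : D.arc y c := mem_N1.1 (Finset.mem_inter.1 hc).1
        by_cases hyz : D.arc y z
        · refine Finset.mem_union_right _ (Finset.mem_inter.2 ⟨mem_N1.2 hyz, ?_⟩)
          refine Finset.mem_sdiff.2 ⟨?_, ?_⟩
          · rw [hL]
            exact Finset.mem_sdiff.2 ⟨mem_outS.2 ⟨y, hy, hyz⟩, hzX⟩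
          · intro h3
            exact hzT (mem_cl.2 (Or.inl h3))
        · refine Finset.mem_union_left _ (mem_N2.2 ⟨?_, hyz, c, hyc, hcz⟩)
          rintro rfl
          exact hzX hy
    have hN2 : N2 D' y ⊆ (N2 D y ∪ Dy) \ Ey := by
      intro z hz
      rw [mem_N2] at hz
      obtain ⟨hzy, hnz, c, hyc, hcz⟩ := hz
      refine Finset.mem_sdiff.2 ⟨?_, ?_⟩
      · by_cases hyz : D.arc y z
        · refine Finset.mem_union_right _ (Finset.mem_inter.2 ⟨mem_N1.2 hyz, ?_⟩)
          by_contra hzZ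
          exact hnz ⟨hyz, fun h3 => hzZ h3.2⟩
        · exact Finset.mem_union_left _ (mem_N2.2 ⟨hzy, hyz, c, hyc.1, hcz.1⟩)
      · intro hzE
        obtain ⟨_, hz2⟩ := Finset.mem_sdiff.1 hzE
        have hzX : z ∉ X := fun h3 => hz2 (Finset.mem_union_right _ h3)
        have hzT : z ∉ cl D T := fun h3 => hz2 (Finset.mem_union_left _ h3)
        by_cases hcX : c ∈ X
        · have hzL : z ∈ L := by
            rw [hL]
            exact Finset.mem_sdiff.2 ⟨mem_outS.2 ⟨c, hcX, hcz.1⟩, hzX⟩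
          have hzZ : z ∈ Z := Finset.mem_sdiff.2 ⟨hzL, fun h3 => hzT (mem_cl.2 (Or.inl h3))⟩
          exact hcz.2 ⟨hcX, hzZ⟩
        · have hcL : c ∈ L := by
            rw [hL]
            exact Finset.mem_sdiff.2 ⟨mem_outS.2 ⟨y, hy, hyc.1⟩, hcX⟩
          have hcT : c ∈ T := by
            by_contra hcT
            exact hyc.2 ⟨hy, Finset.mem_sdiff.2 ⟨hcL, hcT⟩⟩
          exact hzT (mem_cl.2 (Or.inr ⟨c, hcT, hcz.1⟩))
    have h1 := W_mono hw hN2
    rw [W_sdiff hEsub, W_union (by
      rw [Finset.disjoint_left]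
      intro z hz hz'
      exact (mem_N2.1 hz).2.1 (mem_N1.1 (Finset.mem_inter.1 hz').1))] at h1
    have h2 : W w (N1 D' y) = W w (N1 D y) - W w Dy := by
      rw [hN1, W_sdiff Finset.inter_subset_left]
    unfold Fw
    rw [h2]
    nlinarith
  have hE : ∀ y, 2 * W w (N1 D y ∩ Z) ≤
      W w ((cl D (N1 D y ∩ Z)) \ (cl D T ∪ X)) := by
    intro y
    set Dy := N1 D y ∩ Z with hDy
    have hDyL : Dy ⊆ L := Finset.inter_subset_right.trans Finset.sdiff_subset
    have hDT : Disjoint T Dy := by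
      rw [Finset.disjoint_left]
      intro z hz hz'
      exact (Finset.mem_sdiff.1 (Finset.mem_inter.1 hz').2).2 hz
    have h1 := hmin2 (T ∪ Dy) (Finset.union_subset hTL hDyL)
    have e1 : cl D (T ∪ Dy) \ X = (cl D T \ X) ∪ (cl D Dy \ (cl D T ∪ X)) := by
      rw [cl_union]
      ext z
      simp only [Finset.mem_sdiff, Finset.mem_union]
      tauto
    have e2 : Disjoint (cl D T \ X) (cl D Dy \ (cl D T ∪ X)) := by
      rw [Finset.disjoint_left]
      intro z hz hz'
      exact (Finset.mem_sdiff.1 hz').2 (Finset.mem_union_left _ (Finset.mem_sdiff.1 hz).1)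
    simp only [hd] at h1
    rw [e1, W_union e2, W_union hDT] at h1
    linarith
  have hall : ∀ v, W w (N2 D' v) < W w (N1 D' v) := by
    intro v
    by_cases hv : v ∈ X
    · have h1 := key v hv
      have h2 := hE v
      have h3 := hCE v
      unfold Fw at h1
      linarith
    · have h1 : N1 D' v = N1 D v := by
        ext z
        rw [mem_N1, mem_N1]
        exact ⟨fun h3 => h3.1, fun h3 => ⟨h3, fun h4 => hv h4.1⟩⟩
      have h2 : N2 D' v ⊆ N2 D v := by
        intro z hz
        rw [mem_N2] at hz ⊢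
        obtain ⟨hzv, hnz, c, hvc, hcz⟩ := hz
        exact ⟨hzv, fun h3 => hnz ⟨h3, fun h4 => hv h4.1⟩, c, hvc.1, hcz.1⟩
      have h3 := W_mono hw h2
      have h4 := hCE v
      rw [h1]
      linarith
  -- a row which really changes
  have hZne : Z.Nonempty := by
    rw [Finset.nonempty_iff_ne_empty]
    intro hZe
    apply hTne
    apply Finset.Subset.antisymm hTL
    rw [hZ, Finset.sdiff_eq_empty_iff_subset] at hZe
    exact hZe
  obtain ⟨z, hz⟩ := hZne
  have hzL : z ∈ L := (Finset.mem_sdiff.1 hz).1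
  rw [hL] at hzL
  obtain ⟨y, hy, hyz⟩ := mem_outS.1 (Finset.mem_sdiff.1 hzL).1
  have hsub : ∀ v, N1 D' v ⊆ N1 D v := by
    intro v u hu
    have h1 : D'.arc v u := mem_N1.1 hu
    exact mem_N1.2 h1.1
  have hlt : ∑ v, (N1 D' v).card < ∑ v, (N1 D v).card := by
    refine Finset.sum_lt_sum (fun v _ => Finset.card_le_card (hsub v)) ⟨y, Finset.mem_univ _, ?_⟩
    refine Finset.card_lt_card ⟨hsub y, fun h => ?_⟩
    have h1 : D'.arc y z := mem_N1.1 (h (mem_N1.2 hyz))
    exact h1.2 ⟨hy, hz⟩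
  exact absurd (hmin D' hall) (not_le.2 hlt)

theorem W_one (S : Finset V) : W (fun _ => (1 : ℝ)) S = S.card := by
  simp [W]

/-- (G) for the counting weight. -/
theorem G [DecidableEq V] (D : OGraph V) (hCE : ∀ v, (N2 D v).card < (N1 D v).card)
    (hmin : ∀ D' : OGraph V, (∀ v, (N2 D' v).card < (N1 D' v).card) →
      (∑ v, (N1 D v).card) ≤ ∑ v, (N1 D' v).card)
    (X : Finset V) (hX : cl D X ≠ X) :
    (cl D (cl D X) \ cl D X).card < (cl D X \ X).card := by
  have h := Gw D (fun _ => 1) (fun _ => zero_le_one) (fun v => by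
    rw [W_one, W_one]
    exact_mod_cast hCE v) (fun D' hD' => hmin D' (fun v => by
      have := hD' v
      rw [W_one, W_one] at this
      exact_mod_cast this)) X hX
  rw [W_one, W_one] at h
  exact_mod_cast h

end Vale.Agent.P038.H409
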