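import Mathlib

/-!
# The exchange inequality, linear algebra part

For a relation `R` on a finite set and two sets `U ⊆ Z` of pairs which satisfy the two Hall
conditions, `|EZ| + |AZ| + |U| + |EAU| ≤ |Z| + |EAZ| + |EU| + |AU|`, where `E` is the dilation of
the second coordinate along `R` and `A` is the erosion of the first coordinate along `R`. The
proof uses two commuting generic matrices.
-/

namespace Vale.Agent.P038.H409

open Finset

universe u

variable {V : Type u} [Fintype V]

open Classical in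
/-- Dilation of the second coordinate. -/
noncomputable def Ed (R : V → V → Prop) (S : Finset (V × V)) : Finset (V × V) :=
  Finset.univ.filter fun p => ∃ x, R x p.2 ∧ (p.1, x) ∈ S

open Classical in
/-- Erosion of the first coordinate. -/
noncomputable def Ae (R : V → V → Prop) (S : Finset (V × V)) : Finset (V × V) :=
  Finset.univ.filter fun p => ∀ z, R z p.1 → (z, p.2) ∈ S

theorem mem_Ed {R : V → V → Prop} {S : Finset (V × V)} {p : V × V} :
    p ∈ Ed R S ↔ ∃ x, R x p.2 ∧ (p.1, x) ∈ S := by
  simp [Ed]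

theorem mem_Ae {R : V → V → Prop} {S : Finset (V × V)} {p : V × V} :
    p ∈ Ae R S ↔ ∀ z, R z p.1 → (z, p.2) ∈ S := by
  simp [Ae]

/-- The field of rational functions in the variables `X (a, b)`. -/
abbrev KK (V : Type u) := FractionRing (MvPolynomial (V × V) ℚ)

open Classical in
/-- The generic matrix with support `R`. -/
noncomputable def gm (R : V → V → Prop) (a b : V) : KK V :=
  if R a b then algebraMap (MvPolynomial (V × V) ℚ) (KK V) (MvPolynomial.X (a, b)) else 0

theorem gm_eq_zero {R : V → V → Prop} {a b : V} (h : ¬ R a b) : gm R a b = 0 := by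
  simp [gm, h]

omit [Fintype V] in
theorem gm_det {R : V → V → Prop} {ι : Type*} [Fintype ι] [DecidableEq ι] (i m : ι → V)
    (hi : Function.Injective i) (hm : Function.Injective m) (h : ∀ s, R (i s) (m s)) :
    (Matrix.of fun s t : ι => gm R (i s) (m t)).det ≠ 0 := by
  classical
  set P : Matrix ι ι (MvPolynomial (V × V) ℚ) := Matrix.of fun s t =>
    if R (i s) (m t) then MvPolynomial.X (i s, m t) else 0 with hP
  have h1 : (Matrix.of fun s t : ι => gm R (i s) (m t)) =
      (algebraMap (MvPolynomial (V × V) ℚ) (KK V)).mapMatrix P := by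
    ext s t
    simp only [hP, gm, Matrix.of_apply, RingHom.mapMatrix_apply, Matrix.map_apply]
    split_ifs <;> simp
  rw [h1, ← RingHom.map_det]
  intro h2
  have h3 : P.det = 0 := by
    have := IsFractionRing.injective (MvPolynomial (V × V) ℚ) (KK V)
    apply this
    rw [h2, map_zero]
  set φ : V × V → ℚ := fun p => if ∃ s, p.1 = i s ∧ p.2 = m s then 1 else 0 with hφ
  have h4 : (MvPolynomial.eval φ).mapMatrix P = 1 := by
    ext s t
    simp only [hP, Matrix.of_apply, RingHom.mapMatrix_apply, Matrix.map_apply]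
    by_cases hst : s = t
    · subst hst
      rw [if_pos (h s), MvPolynomial.eval_X, hφ, Matrix.one_apply_eq]
      exact if_pos ⟨s, rfl, rfl⟩
    · rw [Matrix.one_apply_ne hst]
      split_ifs with h5
      · rw [MvPolynomial.eval_X, hφ]
        refine if_neg ?_
        rintro ⟨r, h6, h7⟩
        exact hst ((hi h6).trans (hm h7).symm)
      · exact map_zero _
  have h5 : MvPolynomial.eval φ P.det = 1 := by
    rw [RingHom.map_det, h4, Matrix.det_one]
  rw [h3, map_zero] at h5
  exact zero_ne_one h5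

/-- Row step: a function on `S ∪ U` whose image lives on `N`, is supported by `U`. -/
theorem row_step {R : V → V → Prop} (Zr Ur Nr : V → Prop)
    (hN : ∀ s y, Ur s → R s y → Nr y)
    (hall : ∀ S : Finset V, (∀ s ∈ S, Zr s ∧ ¬ Ur s) →
      ∃ T : Finset V, (∀ y ∈ T, (∃ s ∈ S, R s y) ∧ ¬ Nr y) ∧ S.card ≤ T.card)
    (g : V → KK V) (hg : ∀ x, ¬ Zr x → g x = 0)
    (hg2 : ∀ y, ¬ Nr y → ∑ x, gm R x y * g x = 0) (x : V) (hx : ¬ Ur x) : g x = 0 := by
  classical
  by_cases hxZ : Zr x
  swap
  · exact hg x hxZ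
  set G : Finset V := Finset.univ.filter fun s => Zr s ∧ ¬ Ur s with hG
  have hmG : ∀ {s}, s ∈ G ↔ Zr s ∧ ¬ Ur s := by simp [hG]
  set t : G → Finset V := fun s => Finset.univ.filter fun y => R s.1 y ∧ ¬ Nr y with ht
  obtain ⟨m, hm, hmt⟩ := (Finset.all_card_le_biUnion_card_iff_exists_injective t).1 (by
    intro S
    obtain ⟨T, hT, hcard⟩ := hall (S.map (Function.Embedding.subtype _)) (by
      intro s hs
      obtain ⟨s', _, rfl⟩ := Finset.mem_map.1 hs
      exact hmG.1 s'.2)
    rw [Finset.card_map] at hcard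
    refine hcard.trans (Finset.card_le_card ?_)
    intro y hy
    obtain ⟨⟨s, hs, hsy⟩, hny⟩ := hT y hy
    obtain ⟨s', hs', rfl⟩ := Finset.mem_map.1 hs
    rw [Finset.mem_biUnion]
    exact ⟨s', hs', by rw [ht]; simp; exact ⟨hsy, hny⟩⟩)
  have hmR : ∀ s : G, R s.1 (m s) ∧ ¬ Nr (m s) := by
    intro s
    have := hmt s
    rw [ht] at this
    simpa using this
  have hdet := gm_det (R := R) (fun s : G => s.1) m Subtype.val_injective hm
    (fun s => (hmR s).1)
  have hz : Matrix.vecMul (fun s : G => g s.1)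
      (Matrix.of fun s t : G => gm R s.1 (m t)) = 0 := by
    funext r
    have h1 := hg2 (m r) (hmR r).2
    have h2 : ∑ x, gm R x (m r) * g x = ∑ x ∈ G, gm R x (m r) * g x := by
      symm
      refine Finset.sum_subset (Finset.subset_univ _) ?_
      intro s _ hs
      rw [hmG] at hs
      by_cases hsZ : Zr s
      · have hsU : Ur s := by
          by_contra h
          exact hs ⟨hsZ, h⟩
        have : ¬ R s (m r) := fun h => (hmR r).2 (hN s _ hsU h)
        rw [gm_eq_zero this, zero_mul]
      · rw [hg s hsZ, mul_zero]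
    rw [h2, ← Finset.sum_coe_sort] at h1
    simp only [Matrix.vecMul, dotProduct, Matrix.of_apply, Pi.zero_apply]
    rw [← h1]
    exact Finset.sum_congr rfl fun s _ => mul_comm _ _
  have h3 := Matrix.eq_zero_of_vecMul_eq_zero hdet hz
  exact congrFun h3 ⟨x, hmG.2 ⟨hxZ, hx⟩⟩

/-- Column step. -/
theorem col_step {R : V → V → Prop} (Zc Uc Ac : V → Prop)
    (hA : ∀ z y, Ac y → R z y → Zc z)
    (hall : ∀ S : Finset V, (∀ s ∈ S, Zc s ∧ ¬ Uc s) →
      ∃ T : Finset V, (∀ y ∈ T, (∃ s ∈ S, R s y) ∧ Ac y) ∧ S.card ≤ T.card)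
    (g : V → KK V) (hg : ∀ x, ¬ Zc x → g x = 0) :
    ∃ f : V → KK V, (∀ y, ¬ Ac y → f y = 0) ∧
      ∀ z, ¬ Uc z → ∑ y, gm R z y * f y = g z := by
  classical
  set G : Finset V := Finset.univ.filter fun s => Zc s ∧ ¬ Uc s with hG
  have hmG : ∀ {s}, s ∈ G ↔ Zc s ∧ ¬ Uc s := by simp [hG]
  set t : G → Finset V := fun s => Finset.univ.filter fun y => R s.1 y ∧ Ac y with ht
  obtain ⟨m, hm, hmt⟩ := (Finset.all_card_le_biUnion_card_iff_exists_injective t).1 (by
    intro S
    obtain ⟨T, hT, hcard⟩ := hall (S.map (Function.Embedding.subtype _)) (by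
      intro s hs
      obtain ⟨s', _, rfl⟩ := Finset.mem_map.1 hs
      exact hmG.1 s'.2)
    rw [Finset.card_map] at hcard
    refine hcard.trans (Finset.card_le_card ?_)
    intro y hy
    obtain ⟨⟨s, hs, hsy⟩, hny⟩ := hT y hy
    obtain ⟨s', hs', rfl⟩ := Finset.mem_map.1 hs
    rw [Finset.mem_biUnion]
    exact ⟨s', hs', by rw [ht]; simp; exact ⟨hsy, hny⟩⟩)
  have hmR : ∀ s : G, R s.1 (m s) ∧ Ac (m s) := by
    intro s
    have := hmt s
    rw [ht] at this
    simpa using this
  set M : Matrix G G (KK V) := Matrix.of fun s t : G => gm R s.1 (m t) with hM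
  have hdet : M.det ≠ 0 := gm_det (R := R) (fun s : G => s.1) m Subtype.val_injective hm
    (fun s => (hmR s).1)
  have hunit : IsUnit M.det := isUnit_iff_ne_zero.2 hdet
  set y0 : G → KK V := M⁻¹.mulVec (fun s : G => g s.1) with hy0
  have hy1 : M.mulVec y0 = fun s : G => g s.1 := by
    rw [hy0, Matrix.mulVec_mulVec, Matrix.mul_nonsing_inv _ hunit, Matrix.one_mulVec]
  refine ⟨fun y => ∑ s : G, if m s = y then y0 s else 0, ?_, ?_⟩
  · intro y hy
    refine Finset.sum_eq_zero fun s _ => ?_
    rw [if_neg]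
    rintro rfl
    exact hy (hmR s).2
  · intro z hz
    have h1 : ∑ y, gm R z y * (∑ s : G, if m s = y then y0 s else 0) =
        ∑ s : G, gm R z (m s) * y0 s := by
      simp only [Finset.mul_sum]
      rw [Finset.sum_comm]
      refine Finset.sum_congr rfl fun s _ => ?_
      rw [Finset.sum_eq_single (m s)]
      · rw [if_pos rfl]
      · intro b _ hb
        rw [if_neg (fun h => hb h.symm), mul_zero]
      · intro h
        exact absurd (Finset.mem_univ _) h
    rw [h1]
    by_cases hzZ : Zc z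
    · have h2 := congrFun hy1 ⟨z, hmG.2 ⟨hzZ, hz⟩⟩
      simpa [Matrix.mulVec, dotProduct, hM] using h2
    · rw [hg z hzZ]
      refine Finset.sum_eq_zero fun s _ => ?_
      have : ¬ R z (m s) := fun h => hzZ (hA z _ (hmR s).2 h)
      rw [gm_eq_zero this, zero_mul]

end Vale.Agent.P038.H409
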